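import Vale.Agent.P004H.H212.Mu5
import Vale.Agent.P013.Bdl.B6

open Finset Real Filter Topology

namespace Vale.Agent.P004H.H212

/-- the prime number theorem with error, from Siegel-Walfisz at modulus one -/
theorem psiErr_of_sw (h : Vale.Agent.P013.J.SWStmt) : PsiErr := by
  intro A
  obtain ⟨x0, hx0⟩ := h ((A : ℝ) + 1) (by positivity)
  refine ⟨max ⌈x0⌉₊ 3, ?_⟩
  intro N hN
  have hN0 : ⌈x0⌉₊ ≤ N := (le_max_left _ _).trans hN
  have hN3 : 3 ≤ N := (le_max_right _ _).trans hN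
  have hNR : (3 : ℝ) ≤ N := by exact_mod_cast hN3
  have hx : x0 ≤ N := (Nat.le_ceil x0).trans (by exact_mod_cast hN0)
  have hlog : 1 ≤ Real.log N := by
    rw [Real.le_log_iff_exp_le (by linarith)]
    have := Real.exp_one_lt_d9
    linarith
  have h1 := hx0 N hx 1 0 le_rfl (by
    rw [Nat.cast_one]
    exact Real.one_le_rpow hlog (by positivity)) (by simp)
  have h2 : Vale.Agent.P013.J.psiAP (N : ℝ) 1 0 = psi N := by
    unfold Vale.Agent.P013.J.psiAP psi
    rw [Nat.floor_natCast]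
    congr 1
    apply Finset.filter_true_of_mem
    intro n _
    exact Nat.modEq_one
  rw [h2, Nat.totient_one, Nat.cast_one, div_one] at h1
  refine h1.trans ?_
  apply div_le_div_of_nonneg_left (by linarith) (by positivity)
  rw [← Real.rpow_natCast]
  exact Real.rpow_le_rpow_of_exponent_le hlog (by linarith)

/-- the prime number theorem with error `N / (log N)^A` for every `A` -/
theorem psiErr : PsiErr := psiErr_of_sw Vale.Agent.P013.J.sw

/-- `∑_{d ≤ x} μ(d)/d = O((log x)^{-A})` for every `A` -/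
theorem mu_div : ∀ A : ℕ, ∃ C : ℝ, ∀ x : ℝ, 2 ≤ x →
    |∑ d ∈ Finset.Icc 1 ⌊x⌋₊, (ArithmeticFunction.moebius d : ℝ) / d| ≤ C / (Real.log x) ^ A :=
  mu_div_of psiErr

/-- `∑_{d ≤ x} μ(d) = O(x (log x)^{-A})` for every `A` -/
theorem mertens : ∀ A : ℕ, ∃ C : ℝ, ∀ x : ℝ, 2 ≤ x →
    |∑ d ∈ Finset.Icc 1 ⌊x⌋₊, (ArithmeticFunction.moebius d : ℝ)| ≤ C * x / (Real.log x) ^ A :=
  mertens_of psiErr

end Vale.Agent.P004H.H212
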