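import Vale.Agent.P004H.H212.Mu6
import Vale.Agent.P004H.H212.Mu

open Finset Real Filter Topology

namespace Vale.Agent.P004H.H212

/-- `∑_{d ≤ x} μ(d)/d log(x/d) = 1 + O((log x)^{-A})` for every `A` -/
theorem mu_div_log : ∀ A : ℕ, ∃ C : ℝ, ∀ x : ℝ, 2 ≤ x →
    |∑ d ∈ Finset.Icc 1 ⌊x⌋₊, (ArithmeticFunction.moebius d : ℝ) / d * Real.log (x / d) - 1| ≤
      C / (Real.log x) ^ A :=
  mu_div_log_of psiErr

/-- all `x ≥ 1`, with `(1 + log x)` -/
theorem mu_div' : ∀ A : ℕ, ∃ C : ℝ, 0 ≤ C ∧ ∀ x : ℝ, 1 ≤ x →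
    |∑ d ∈ Finset.Icc 1 ⌊x⌋₊, (ArithmeticFunction.moebius d : ℝ) / d| ≤
      C / (1 + Real.log x) ^ A := by
  intro A
  obtain ⟨B, hB, hG⟩ := G_bound psiErr A
  refine ⟨2 ^ A * B, by positivity, ?_⟩
  intro x hx
  have h1 : 1 ≤ ⌊x⌋₊ := Nat.le_floor (by simpa using hx)
  have hNR : (1 : ℝ) ≤ (⌊x⌋₊ : ℝ) := by exact_mod_cast h1
  have hl := ell_pos ⌊x⌋₊
  have hlx : 0 ≤ Real.log x := Real.log_nonneg hx
  have h2 : x ≤ 2 * (⌊x⌋₊ : ℝ) := by
    have := (Nat.lt_floor_add_one x).le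
    linarith
  have h3 : Real.log x ≤ Real.log (2 * (⌊x⌋₊ : ℝ)) := Real.log_le_log (by linarith) h2
  rw [Real.log_mul (by norm_num) (by linarith)] at h3
  have h4 := Real.log_two_lt_d9
  have h5 : 1 + Real.log x ≤ 2 * (1 + Real.log (⌊x⌋₊ : ℝ)) := by linarith [log_nn ⌊x⌋₊]
  have h6 : (1 + Real.log x) ^ A ≤ 2 ^ A * (1 + Real.log (⌊x⌋₊ : ℝ)) ^ A := by
    rw [← mul_pow]
    exact pow_le_pow_left₀ (by linarith) h5 A
  refine (hG _ h1).trans ?_
  rw [div_le_div_iff₀ (by positivity) (by positivity)]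
  calc B * (1 + Real.log x) ^ A ≤ B * (2 ^ A * (1 + Real.log (⌊x⌋₊ : ℝ)) ^ A) :=
        mul_le_mul_of_nonneg_left h6 hB
    _ = _ := by ring

/-- all `x ≥ 1`, with `(1 + log x)` -/
theorem mu_div_log' : ∀ A : ℕ, ∃ C : ℝ, 0 ≤ C ∧ ∀ x : ℝ, 1 ≤ x →
    |∑ d ∈ Finset.Icc 1 ⌊x⌋₊, (ArithmeticFunction.moebius d : ℝ) / d * Real.log (x / d) - 1| ≤
      C / (1 + Real.log x) ^ A := by
  intro A
  obtain ⟨C, hC⟩ := mu_div_log A
  have hC0 : 0 ≤ C := by
    have h1 := (abs_nonneg _).trans (hC 2 le_rfl)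
    have h2 : 0 < Real.log 2 ^ A := by
      have := Real.log_pos (by norm_num : (1 : ℝ) < 2)
      positivity
    by_contra hcon
    rw [not_le] at hcon
    have h3 := div_neg_of_neg_of_pos hcon h2
    linarith
  have hl2 : 0 < Real.log 2 := Real.log_pos (by norm_num)
  refine ⟨3 ^ A * C + 2 * 2 ^ A, by positivity, ?_⟩
  intro x hx
  have hlx : 0 ≤ Real.log x := Real.log_nonneg hx
  rcases lt_or_ge x 2 with h2 | h2
  · have hf : ⌊x⌋₊ = 1 := by
      rw [Nat.floor_eq_iff (by linarith)]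
      constructor
      · simpa using hx
      · norm_num; linarith
    rw [hf]
    simp only [Finset.Icc_self, Finset.sum_singleton, ArithmeticFunction.moebius_apply_one,
      Nat.cast_one, Int.cast_one, div_one, one_mul]
    have h3 : Real.log x ≤ 1 := by
      have := Real.log_le_sub_one_of_pos (by linarith : (0 : ℝ) < x)
      linarith
    have h4 : |Real.log x - 1| ≤ 1 := by
      rw [abs_le]
      constructor <;> linarith
    rw [le_div_iff₀ (by positivity)]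
    have h5 : (1 + Real.log x) ^ A ≤ 2 ^ A := pow_le_pow_left₀ (by linarith) (by linarith) A
    have h6 : |Real.log x - 1| * (1 + Real.log x) ^ A ≤ 1 * 2 ^ A :=
      mul_le_mul h4 h5 (by positivity) (by norm_num)
    have h7 : 0 ≤ 3 ^ A * C := by positivity
    have h8 : (0 : ℝ) < 2 ^ A := by positivity
    linarith
  · refine (hC x h2).trans ?_
    have hlx2 : Real.log 2 ≤ Real.log x := Real.log_le_log (by norm_num) h2
    have h3 : 1 + Real.log x ≤ 3 * Real.log x := by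
      have := Real.log_two_gt_d9
      linarith
    have h4 : (1 + Real.log x) ^ A ≤ 3 ^ A * Real.log x ^ A := by
      rw [← mul_pow]
      exact pow_le_pow_left₀ (by linarith) h3 A
    have hlx0 : 0 < Real.log x := by linarith
    rw [div_le_div_iff₀ (by positivity) (by positivity)]
    have h5 : 0 ≤ 2 * 2 ^ A * Real.log x ^ A := by positivity
    calc C * (1 + Real.log x) ^ A ≤ C * (3 ^ A * Real.log x ^ A) :=
          mul_le_mul_of_nonneg_left h4 hC0
      _ ≤ _ := by nlinarith [h5]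

end Vale.Agent.P004H.H212
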